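import Vale.Agent.P237.Quant.TailData.N39.tailN39P0Part0
import Vale.Agent.P237.Quant.TailData.N39.tailN39P0Part1
import Vale.Agent.P237.Quant.TailData.N39.tailN39P0Part2
import Vale.Agent.P237.Quant.TailData.N39.tailN39P0Part3
import Vale.Agent.P237.Quant.TailData.N39.tailN39P0Part4
import Vale.Agent.P237.Quant.TailData.N39.tailN39P0Part5

/-!
Tail calibration tailN39P0 in dimension 39. The check. Generated data, checked by the kernel.
-/

set_option maxRecDepth 100000
set_option linter.all false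

namespace Vale.Agent.P237.Quant.TailData

open TailCert


/-- The calibration. -/
noncomputable def tailN39P0 : Cfg :=
  tailN39P0Base.withIvals (List.flatten [tailN39P0L0, tailN39P0L1, tailN39P0L2, tailN39P0L3, tailN39P0L4, tailN39P0L5, tailN39P0L6, tailN39P0L7, tailN39P0L8, tailN39P0L9, tailN39P0L10, tailN39P0L11, tailN39P0L12, tailN39P0L13, tailN39P0L14, tailN39P0L15, tailN39P0L16, tailN39P0L17, tailN39P0L18, tailN39P0L19, tailN39P0L20, tailN39P0L21, tailN39P0L22])

theorem tailN39P0_parts : [tailN39P0L0, tailN39P0L1, tailN39P0L2, tailN39P0L3, tailN39P0L4, tailN39P0L5, tailN39P0L6, tailN39P0L7, tailN39P0L8, tailN39P0L9, tailN39P0L10, tailN39P0L11, tailN39P0L12, tailN39P0L13, tailN39P0L14, tailN39P0L15, tailN39P0L16, tailN39P0L17, tailN39P0L18, tailN39P0L19, tailN39P0L20, tailN39P0L21, tailN39P0L22].Forall fun l => tailN39P0Base.partUsed tailN39P0Used l = true := by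
  simp only [List.forall_cons, List.Forall]
  exact ⟨tailN39P0L0_ok, tailN39P0L1_ok, tailN39P0L2_ok, tailN39P0L3_ok, tailN39P0L4_ok, tailN39P0L5_ok, tailN39P0L6_ok, tailN39P0L7_ok, tailN39P0L8_ok, tailN39P0L9_ok, tailN39P0L10_ok, tailN39P0L11_ok, tailN39P0L12_ok, tailN39P0L13_ok, tailN39P0L14_ok, tailN39P0L15_ok, tailN39P0L16_ok, tailN39P0L17_ok, tailN39P0L18_ok, tailN39P0L19_ok, tailN39P0L20_ok, tailN39P0L21_ok, tailN39P0L22_ok⟩

theorem tailN39P0_check : tailN39P0.check = true :=
  Cfg.check_of_parts (by decide +kernel) tailN39P0_parts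

end Vale.Agent.P237.Quant.TailData
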