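import Vale.Agent.P237.Quant.TailData.N39.tailN39P3Part0
import Vale.Agent.P237.Quant.TailData.N39.tailN39P3Part1
import Vale.Agent.P237.Quant.TailData.N39.tailN39P3Part2
import Vale.Agent.P237.Quant.TailData.N39.tailN39P3Part3
import Vale.Agent.P237.Quant.TailData.N39.tailN39P3Part4

/-!
Tail calibration tailN39P3 in dimension 39. The check. Generated data, checked by the kernel.
-/

set_option maxRecDepth 100000
set_option linter.all false

namespace Vale.Agent.P237.Quant.TailData

open TailCert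


/-- The calibration. -/
noncomputable def tailN39P3 : Cfg :=
  tailN39P3Base.withIvals (List.flatten [tailN39P3L0, tailN39P3L1, tailN39P3L2, tailN39P3L3, tailN39P3L4, tailN39P3L5, tailN39P3L6, tailN39P3L7, tailN39P3L8, tailN39P3L9, tailN39P3L10, tailN39P3L11, tailN39P3L12, tailN39P3L13, tailN39P3L14, tailN39P3L15, tailN39P3L16, tailN39P3L17, tailN39P3L18])

theorem tailN39P3_parts : [tailN39P3L0, tailN39P3L1, tailN39P3L2, tailN39P3L3, tailN39P3L4, tailN39P3L5, tailN39P3L6, tailN39P3L7, tailN39P3L8, tailN39P3L9, tailN39P3L10, tailN39P3L11, tailN39P3L12, tailN39P3L13, tailN39P3L14, tailN39P3L15, tailN39P3L16, tailN39P3L17, tailN39P3L18].Forall fun l => tailN39P3Base.partUsed tailN39P3Used l = true := by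
  simp only [List.forall_cons, List.Forall]
  exact ⟨tailN39P3L0_ok, tailN39P3L1_ok, tailN39P3L2_ok, tailN39P3L3_ok, tailN39P3L4_ok, tailN39P3L5_ok, tailN39P3L6_ok, tailN39P3L7_ok, tailN39P3L8_ok, tailN39P3L9_ok, tailN39P3L10_ok, tailN39P3L11_ok, tailN39P3L12_ok, tailN39P3L13_ok, tailN39P3L14_ok, tailN39P3L15_ok, tailN39P3L16_ok, tailN39P3L17_ok, tailN39P3L18_ok⟩

theorem tailN39P3_check : tailN39P3.check = true :=
  Cfg.check_of_parts (by decide +kernel) tailN39P3_parts

end Vale.Agent.P237.Quant.TailData
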